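import Crest.Agent.Lib.PT.Uniform
import Crest.Agent.Lib.PT.Bridge
import Crest.Prelude.Def_CNF

/-!
The Cook–Levin theorem: satisfiability of formulas with at most three literals per clause is
NP-hard.
-/

set_option autoImplicit false

namespace Crest.Agent.Lib.PT

open Slp Crest.Complexity Crest.Enc Crest.LogicCS

namespace CookLevin

/-- Formulas with natural numbers as variables. -/
abbrev Raw : Type := List (List (ℕ × Bool))

/-- Satisfaction of a raw formula. -/
def RawSat (σ : ℕ → Bool) (F : Raw) : Prop := ∀ c ∈ F, ∃ l ∈ c, σ l.1 = l.2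

lemma rawSat_append {σ : ℕ → Bool} {F G : Raw} : RawSat σ (F ++ G) ↔ RawSat σ F ∧ RawSat σ G := by
  simp only [RawSat, List.mem_append, or_imp, forall_and]

/-- The clauses of the gates. -/
def tseitin (gs : List Gate) (len : ℕ) : Raw :=
  (gs.zipIdx len).flatMap fun q =>
    [[(q.1.1, false), (q.1.2, false), (q.2, false)], [(q.1.1, true), (q.2, true)],
      [(q.1.2, true), (q.2, true)]]

/-- Unit clauses fixing an initial segment of the variables. -/
def units (u : List Bool) : Raw := (u.zipIdx 0).map fun q => [(q.2, q.1)]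

lemma rawSat_tseitin (σ : ℕ → Bool) (gs : List Gate) (len : ℕ) :
    RawSat σ (tseitin gs len) ↔
      ∀ (k : ℕ) (h : k < gs.length), σ (len + k) = !(σ gs[k].1 && σ gs[k].2) := by
  simp only [RawSat, tseitin, List.mem_flatMap, forall_exists_index, and_imp]
  constructor
  · intro H k hk
    have hm : (gs[k], len + k) ∈ gs.zipIdx len := by
      rw [List.mem_zipIdx_iff_le_and_getElem?_sub]; simp [hk]
    have h1 := H _ _ hm (List.mem_cons_self ..)
    have h2 := H _ _ hm (List.mem_cons_of_mem _ (List.mem_cons_self ..))
    have h3 := H _ _ hm (List.mem_cons_of_mem _ (List.mem_cons_of_mem _ (List.mem_cons_self ..)))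
    simp only [List.mem_cons, List.not_mem_nil, or_false, exists_eq_or_imp, exists_eq_left] at h1 h2 h3
    revert h1 h2 h3
    cases σ (len + k) <;> cases σ gs[k].1 <;> cases σ gs[k].2 <;> simp
  · rintro H c ⟨g, i⟩ hm hc
    rw [List.mem_zipIdx_iff_le_and_getElem?_sub] at hm
    obtain ⟨h1, h2⟩ := hm
    simp only at h1 h2 hc
    obtain ⟨hk, rfl⟩ := List.getElem?_eq_some_iff.1 h2
    have := H _ hk
    rw [Nat.add_sub_cancel' h1] at this
    simp only [List.mem_cons, List.not_mem_nil, or_false] at hc
    revert this
    rcases hc with rfl | rfl | rfl <;>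
    simp only [List.mem_cons, List.not_mem_nil, or_false, exists_eq_or_imp, exists_eq_left] <;>
    cases σ i <;> cases σ gs[i - len].1 <;> cases σ gs[i - len].2 <;> simp

lemma rawSat_units (σ : ℕ → Bool) (u : List Bool) :
    RawSat σ (units u) ↔ ∀ (k : ℕ) (h : k < u.length), σ k = u[k] := by
  simp only [RawSat, units, List.mem_map, forall_exists_index, and_imp]
  constructor
  · intro H k hk
    have hm : (u[k], k) ∈ u.zipIdx 0 := by
      rw [List.mem_zipIdx_iff_le_and_getElem?_sub]; simp [hk]
    simpa using H _ _ hm rfl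
  · rintro H c ⟨g, i⟩ hm rfl
    rw [List.mem_zipIdx_iff_le_and_getElem?_sub] at hm
    obtain ⟨hk, h2⟩ := List.getElem?_eq_some_iff.1 hm.2
    simp only [Nat.sub_zero] at hk h2
    simpa [← h2] using H _ hk

/-- An assignment obeying all gates lists the wire values. -/
lemma run_eq_of_gates {gs : List Gate} {len : ℕ} (hw : WF gs len) (σ : ℕ → Bool)
    (h : ∀ (k : ℕ) (h : k < gs.length), σ (len + k) = !(σ gs[k].1 && σ gs[k].2)) :
    ∀ i < len + gs.length, (run gs ((List.range len).map σ)).getD i false = σ i := by
  intro i
  induction i using Nat.strong_induction_on with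
  | _ i ih =>
    intro hi
    by_cases hil : i < len
    · rw [getD_run_of_lt _ _ (by simpa using hil)]
      simp [List.getD_eq_getElem?_getD, hil]
    · obtain ⟨k, rfl⟩ : ∃ k, i = len + k := ⟨i - len, by omega⟩
      have hk : k < gs.length := by omega
      have := getD_run_gate (gs := gs) (ws := (List.range len).map σ) (by simpa using hw) k hk
      simp only [List.length_map, List.length_range] at this
      obtain ⟨h1, h2⟩ := hw k hk
      rw [this, h k hk, ih _ h1 (by omega), ih _ h2 (by omega)]

/-- The formula saying that the circuit accepts an input with prefix `u`. -/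
def formula (gs : List Gate) (len : ℕ) (u : List Bool) : Raw :=
  units u ++ tseitin gs len ++ [[(len + gs.length - 1, true)]]

lemma sat_formula {gs : List Gate} {len : ℕ} (hw : WF gs len) (hne : gs ≠ []) (u : List Bool)
    (hu : u.length ≤ len) :
    (∃ σ, RawSat σ (formula gs len u)) ↔
      ∃ w : List Bool, u.length + w.length = len ∧ (run gs (u ++ w)).getLast? = some true := by
  have hpos : 0 < gs.length := List.length_pos_iff.2 hne
  simp only [formula, rawSat_append, rawSat_units, rawSat_tseitin]
  constructor
  · rintro ⟨σ, ⟨h1, h2⟩, h3⟩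
    have h4 : σ (len + gs.length - 1) = true := by simpa [RawSat] using h3
    have e : (List.range len).map σ = u ++ ((List.range len).map σ).drop u.length := by
      conv_lhs => rw [← List.take_append_drop u.length ((List.range len).map σ)]
      congr 1
      refine List.ext_getElem (by simp; omega) fun i h h' => ?_
      simp [h1 i h']
    refine ⟨((List.range len).map σ).drop u.length, by simp; omega, ?_⟩
    rw [← e]
    have := run_eq_of_gates hw σ h2 (len + gs.length - 1) (by omega)
    rw [h4, List.getD_eq_getElem?_getD, List.getElem?_eq_getElem (by simp; omega)] at this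
    rw [List.getLast?_eq_getElem?]
    simp only [length_run, List.length_map, List.length_range]
    rw [List.getElem?_eq_getElem (by simp; omega)]
    simpa using this
  · rintro ⟨w, h1, h2⟩
    have hl : (u ++ w).length = len := by simpa using h1
    refine ⟨fun i => (run gs (u ++ w)).getD i false, ⟨fun k hk => ?_, fun k hk => ?_⟩, ?_⟩
    · beta_reduce
      rw [getD_run_of_lt _ _ (by omega)]
      simp [List.getD_eq_getElem?_getD, List.getElem?_append_left hk, hk]
    · have := getD_run_gate (gs := gs) (ws := u ++ w) (by rwa [hl]) k hk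
      rwa [hl] at this
    · rw [List.getLast?_eq_getElem?, length_run, hl] at h2
      simp [RawSat, List.getD_eq_getElem?_getD, h2]

lemma formula_bound {gs : List Gate} {len : ℕ} (hw : WF gs len) (hne : gs ≠ []) (u : List Bool)
    (hu : u.length ≤ len) : ∀ c ∈ formula gs len u, c ≠ [] ∧ c.length ≤ 3 ∧
      ∀ l ∈ c, l.1 < len + gs.length := by
  have hpos : 0 < gs.length := List.length_pos_iff.2 hne
  intro c hc
  simp only [formula, units, tseitin, List.mem_append, List.mem_map, List.mem_flatMap,
    List.mem_singleton] at hc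
  rcases hc with (⟨⟨b, i⟩, hm, rfl⟩ | ⟨⟨g, i⟩, hm, hc⟩) | rfl
  · rw [List.mem_zipIdx_iff_le_and_getElem?_sub] at hm
    obtain ⟨hk, -⟩ := List.getElem?_eq_some_iff.1 hm.2
    simp at hk ⊢; omega
  · rw [List.mem_zipIdx_iff_le_and_getElem?_sub] at hm
    obtain ⟨h1, h2⟩ := hm
    simp only at h1 h2 hc
    obtain ⟨hk, rfl⟩ := List.getElem?_eq_some_iff.1 h2
    have := hw _ hk
    simp only [List.mem_cons, List.not_mem_nil, or_false] at hc
    rcases hc with rfl | rfl | rfl <;> simp <;> omega
  · simp; omega

variable {α : Type} [Enc α]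

lemma pt_formula {gs : α → List Gate} {len : α → ℕ} {u : α → List Bool} (hg : PT gs)
    (hl : PT len) (hu : PT u) : PT (fun a => formula (gs a) (len a) (u a)) := by
  unfold formula units tseitin
  fun_prop

end CookLevin

open CookLevin

/-- **Cook–Levin, raw form.** A language in NP reduces in polynomial time to the satisfiability of
raw formulas whose clauses are nonempty and have at most three literals; the number `N x` of
variables is polynomially bounded. -/
theorem cookLevin_raw {A : Set (List Bool)} (hA : InNP A) :
    ∃ (N : List Bool → ℕ) (F : List Bool → Raw), PT N ∧ PB N ∧ PT F ∧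
      (∀ x, ∀ c ∈ F x, c ≠ [] ∧ c.length ≤ 3 ∧ ∀ l ∈ c, l.1 < N x) ∧
      ∀ x, x ∈ A ↔ ∃ σ, RawSat σ (F x) := by
  obtain ⟨V, p, hV, hA⟩ := inNP_iff_pt.1 hA
  let V' : List Bool → Bool := fun z =>
    V ((z.drop (z.idxOf false + 1)).take (z.idxOf false),
      ((z.drop (2 * z.idxOf false + 1)).dropWhile fun b => !b).tail)
  have hV' : PT V' := by
    refine hV.comp (PT.pair (by fun_prop) (PT.tail ?_))
    exact PT.dropWhile (g := fun _ b => !b) (by fun_prop) (by fun_prop)
  let pre : List Bool → List Bool := fun x => List.replicate x.length true ++ false :: x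
  have hpre : PT pre := by simp only [pre]; fun_prop
  have lpre : ∀ x, (pre x).length = 2 * x.length + 1 := fun x => by simp [pre]; omega
  have key : ∀ x w, V' (pre x ++ w) = V (x, (w.dropWhile fun b => !b).tail) := by
    intro x w
    have e : (pre x ++ w).idxOf false = x.length := by
      simp only [pre, List.append_assoc]
      rw [List.idxOf_append_of_notMem (by simp)]
      simp
    simp only [V', e]
    congr 2
    · simp [pre, List.drop_append]
    · rw [← lpre x, List.drop_left]
  obtain ⟨gen, hgen, hwf, hne, hrun⟩ := exists_uniform_slp hV'.polyTimePred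
  let m : List Bool → ℕ := fun x => 2 * x.length + 1 + (p.eval x.length + 1)
  have hm : PT m := by simp only [m]; fun_prop
  have hm' : PB m := by simp only [m]; fun_prop
  have hg : PT (fun x => gen (m x)) := hgen hm hm'
  have hle : ∀ x, (false :: pre x).length ≤ m x + 1 := fun x => by
    simp only [List.length_cons, lpre, m]; omega
  refine ⟨fun x => m x + 1 + (gen (m x)).length,
    fun x => formula (gen (m x)) (m x + 1) (false :: pre x),
    (hm.add (PT.const 1)).add hg.length, (hm'.add (PB.const 1)).add (PB.length hg),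
    pt_formula hg (by fun_prop) (by fun_prop),
    fun x => formula_bound (hwf _) (hne _) _ (hle x), fun x => ?_⟩
  rw [hA, sat_formula (hwf _) (hne _) _ (hle x)]
  have hr : ∀ w : List Bool, w.length = p.eval x.length + 1 →
      (run (gen (m x)) (false :: pre x ++ w)).getLast? =
        some (V (x, (w.dropWhile fun b => !b).tail)) := by
    intro w hw
    have := hrun (pre x ++ w)
    rw [key, List.length_append, lpre, hw] at this
    exact this
  constructor
  · rintro ⟨w, h1, h2⟩
    refine ⟨List.replicate (p.eval x.length - w.length) false ++ true :: w, ?_, ?_⟩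
    · simp only [List.length_cons, lpre, m, List.length_append, List.length_replicate]; omega
    · rw [hr _ (by simp; omega), List.dropWhile_append_of_pos (by simp)]
      simp [h2]
  · rintro ⟨w, h1, h2⟩
    have hw : w.length = p.eval x.length + 1 := by
      simp only [List.length_cons, lpre, m] at h1; omega
    rw [hr w hw] at h2
    refine ⟨_, ?_, Option.some.inj h2⟩
    have := (List.dropWhile_sublist (l := w) fun b => !b).length_le
    simp only [List.length_tail]; omega

namespace CookLevin

/-- A raw formula read over the variables `Fin (n + 1)`. -/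
def toFormula (n : ℕ) (F : Raw) : CNF.Formula (n + 1) :=
  F.map fun c => c.map fun l => (Fin.ofNat (n + 1) l.1, l.2)

lemma satisfiable_toFormula {n : ℕ} {F : Raw} (h : ∀ c ∈ F, ∀ l ∈ c, l.1 < n + 1) :
    CNF.Satisfiable (toFormula n F) ↔ ∃ σ, RawSat σ F := by
  simp only [CNF.Satisfiable, CNF.Satisfies, toFormula, RawSat, List.mem_map, forall_exists_index,
    and_imp, forall_apply_eq_imp_iff₂, exists_exists_and_eq_and]
  constructor
  · rintro ⟨σ, hσ⟩
    exact ⟨fun i => σ (Fin.ofNat (n + 1) i), hσ⟩
  · rintro ⟨σ, hσ⟩
    refine ⟨fun i => σ i, fun c hc => ?_⟩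
    obtain ⟨l, hl, h2⟩ := hσ c hc
    exact ⟨l, hl, by simpa [Nat.mod_eq_of_lt (h c hc l hl)] using h2⟩

lemma pt_natCode {α : Type} [Enc α] {n : α → ℕ} (hn : PT n) : PT (fun a => natCode (n a)) := by
  unfold natCode
  fun_prop

lemma pt_code_toFormula {α : Type} [Enc α] {n : α → ℕ} {F : α → Raw} (hn : PT n) (hF : PT F) :
    PT (fun a => CNF.code (n a + 1) (toFormula (n a) (F a))) := by
  have h1 : PT (fun a => natCode (n a + 1) ++ natCode (F a).length ++
      ((F a).map fun c => natCode c.length ++
        (c.map fun l => natCode (l.1 % (n a + 1)) ++ [l.2]).flatten).flatten) := by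
    refine ((pt_natCode (by fun_prop)).append (pt_natCode (by fun_prop))).append
      (PT.flatten (PT.map hF ?_))
    refine (pt_natCode (by fun_prop)).append (PT.flatten (PT.map (by fun_prop) ?_))
    exact (pt_natCode (by fun_prop)).append (by fun_prop)
  refine h1.congr fun a => ?_
  simp [CNF.code, toFormula, Function.comp_def]

end CookLevin

/-- **Cook–Levin, reduction form.** -/
theorem cookLevin_formula {A : Set (List Bool)} (hA : InNP A) :
    ∃ f : List Bool → List Bool, PT f ∧ ∀ x, ∃ (n : ℕ) (F : CNF.Formula n),
      CNF.HasWidthLe 3 F ∧ f x = CNF.code n F ∧ (x ∈ A ↔ CNF.Satisfiable F) := by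
  obtain ⟨N, F, hN, -, hF, h1, h2⟩ := cookLevin_raw hA
  refine ⟨fun x => CNF.code (N x + 1) (toFormula (N x) (F x)), pt_code_toFormula hN hF,
    fun x => ⟨_, _, ?_, rfl, ?_⟩⟩
  · intro c hc
    obtain ⟨c', hc', rfl⟩ := List.mem_map.1 hc
    simpa using (h1 x c' hc').2.1
  · rw [h2, satisfiable_toFormula fun c hc l hl => ((h1 x c hc).2.2 l hl).trans (by omega)]

namespace CookLevin

lemma natCode_append_inj {a b : ℕ} {s t : List Bool} (h : natCode a ++ s = natCode b ++ t) :
    a = b ∧ s = t := by
  have key : ∀ (l m : List Bool), (l.map fun b => [true, b]).flatten ++ [false, false] ++ s =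
      (m.map fun b => [true, b]).flatten ++ [false, false] ++ t → l = m ∧ s = t := by
    intro l
    induction l with
    | nil => intro m h; cases m <;> simp at h ⊢; exact h
    | cons x l ih =>
      intro m h
      cases m with
      | nil => simp at h
      | cons y m =>
        simp only [List.map_cons, List.flatten_cons, List.cons_append, List.nil_append,
          List.cons.injEq, true_and] at h
        obtain ⟨h1, h2⟩ := ih m h.2
        exact ⟨by rw [h.1, h1], h2⟩
  obtain ⟨h1, h2⟩ := key _ _ h
  exact ⟨bits_injective h1, h2⟩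

lemma flatten_map_append_inj {β : Type} (g : β → List Bool)
    (hg : ∀ a b s t, g a ++ s = g b ++ t → a = b ∧ s = t) : ∀ (l m : List β) (s t : List Bool),
    l.length = m.length → (l.map g).flatten ++ s = (m.map g).flatten ++ t → l = m ∧ s = t := by
  intro l
  induction l with
  | nil => intro m s t h1 h2; cases m <;> simp at h1 h2 ⊢; exact h2
  | cons x l ih =>
    intro m s t h1 h2
    cases m with
    | nil => simp at h1
    | cons y m =>
      simp only [List.map_cons, List.flatten_cons, List.append_assoc] at h2
      obtain ⟨h3, h4⟩ := hg _ _ _ _ h2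
      obtain ⟨h5, h6⟩ := ih m s t (by simpa using h1) h4
      exact ⟨by rw [h3, h5], h6⟩

lemma code_inj {n n' : ℕ} {F : CNF.Formula n} {F' : CNF.Formula n'}
    (h : CNF.code n F = CNF.code n' F') : (⟨n, F⟩ : Σ n, CNF.Formula n) = ⟨n', F'⟩ := by
  simp only [CNF.code, List.append_assoc] at h
  obtain ⟨rfl, h⟩ := natCode_append_inj h
  obtain ⟨h1, h⟩ := natCode_append_inj h
  congr 1
  refine (flatten_map_append_inj _ ?_ F F' [] [] h1 (by simpa using h)).1
  intro c d s t h
  simp only [List.append_assoc] at h
  obtain ⟨h1, h⟩ := natCode_append_inj h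
  refine flatten_map_append_inj _ ?_ c d s t h1 h
  intro l l' s t h
  simp only [List.append_assoc] at h
  obtain ⟨h1, h⟩ := natCode_append_inj h
  simp only [List.cons_append, List.nil_append, List.cons.injEq] at h
  exact ⟨Prod.ext (Fin.ext h1) h.1, h.2⟩

end CookLevin

/-- The codes of the satisfiable formulas with at most three literals per clause. -/
def ThreeSat : Set (List Bool) :=
  {y | ∃ (n : ℕ) (F : CNF.Formula n), CNF.HasWidthLe 3 F ∧ CNF.Satisfiable F ∧ y = CNF.code n F}

/-- **Cook–Levin.** -/
theorem npHard_threeSat : NPHard ThreeSat := by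
  intro A hA
  obtain ⟨f, hf, h⟩ := cookLevin_formula hA
  refine ⟨f, hf.polyTime, fun x => ?_⟩
  obtain ⟨n, F, h1, h2, h3⟩ := h x
  rw [h3, h2]
  refine ⟨fun h => ⟨n, F, h1, h, rfl⟩, ?_⟩
  rintro ⟨n', F', -, h4, h5⟩
  cases code_inj h5
  exact h4

end Crest.Agent.Lib.PT
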